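import Vale.Agent.P219.Kappa
import Vale.Agent.P219.Radial

open MeasureTheory Set
open scoped RealInnerProductSpace

namespace Vale.Agent.Results.P219.ConformallyFlatKappa

/-- Euclidean space. -/
abbrev Space (n : ℕ) := EuclideanSpace ℝ (Fin n)

/-- The differential. -/
noncomputable def dif {n : ℕ} (u : Space n → ℝ) : Space n → (Space n →L[ℝ] ℝ) := fderiv ℝ u

/-- The value of the differential. -/
noncomputable def dval {n : ℕ} (u : Space n → ℝ) (x a : Space n) : ℝ := dif u x a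

/-- The Euclidean norm of the differential. -/
noncomputable def dnorm {n : ℕ} (u : Space n → ℝ) (x : Space n) : ℝ := ‖dif u x‖

/-- The Euclidean Hessian. -/
noncomputable def hess {n : ℕ} (u : Space n → ℝ) (x a : Space n) : ℝ :=
  fderiv ℝ (dif u) x a a

/-- Sectional curvature of the metric `e^{2u}δ` on the plane spanned by orthonormal `a`, `b`. -/
noncomputable def secConf {n : ℕ} (u : Space n → ℝ) (x a b : Space n) : ℝ :=
  Real.exp (-2 * u x) * (-(hess u x a) - hess u x b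
    + dval u x a ^ 2 + dval u x b ^ 2 - dnorm u x ^ 2)

/-- Sectional curvature of `e^{2u}δ` at most `κ` on `U`. -/
def SecLe {n : ℕ} (κ : ℝ) (U : Set (Space n)) (u : Space n → ℝ) : Prop :=
  ∀ x ∈ U, ∀ a b, ‖a‖ = 1 → ‖b‖ = 1 → ⟪a, b⟫ = 0 → secConf u x a b ≤ κ

/-- The gradient of `u` points radially outwards on `U`. -/
def RadiallyIncreasing {n : ℕ} (U : Set (Space n)) (u : Space n → ℝ) : Prop :=
  ∀ x ∈ U, dnorm u x * ‖x‖ ≤ dval u x x

/-- A nonnegative `C^1` test function with compact support in `U`. -/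
def IsTest {n : ℕ} (U : Set (Space n)) (w : Space n → ℝ) : Prop :=
  ContDiff ℝ 1 w ∧ HasCompactSupport w ∧ tsupport w ⊆ U ∧ ∀ x, 0 ≤ w x

/-- The volume of the Euclidean unit ball. -/
noncomputable def ballVol (n : ℕ) : ℝ := volume.real (Metric.closedBall (0 : Space n) 1)

/-- The Euclidean isoperimetric constant `n ω_n^{1/n}`. -/
noncomputable def eucConst (n : ℕ) : ℝ := n * ballVol n ^ ((n : ℝ)⁻¹)

/-- The integral of `w^{n/(n-1)}` for the volume of `e^{2u}δ`. -/
noncomputable def volTerm {n : ℕ} (u w : Space n → ℝ) : ℝ :=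
  ∫ x, Real.exp (n * u x) * w x ^ ((n : ℝ) / (n - 1))

/-- The integral of `w` for the volume of `e^{2u}δ`. -/
noncomputable def massTerm {n : ℕ} (u w : Space n → ℝ) : ℝ :=
  ∫ x, Real.exp (n * u x) * w x

/-- The integral of the gradient norm of `w` for `e^{2u}δ`. -/
noncomputable def gradTerm {n : ℕ} (u w : Space n → ℝ) : ℝ :=
  ∫ x, Real.exp (((n : ℝ) - 1) * u x) * dnorm w x

/-- `sn_b` for `b = √(-κ)`. -/
noncomputable def sn (κ t : ℝ) : ℝ :=
  if √(-κ) = 0 then t else Real.sinh (√(-κ) * t) / √(-κ)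

/-- The area of a geodesic sphere of radius `r` in the space form of curvature `κ`. -/
noncomputable def modelArea (n : ℕ) (κ r : ℝ) : ℝ := n * ballVol n * sn κ r ^ (n - 1)

/-- The volume of a geodesic ball of radius `r` in the space form of curvature `κ`. -/
noncomputable def modelVol (n : ℕ) (κ r : ℝ) : ℝ :=
  n * ballVol n * ∫ t in (0 : ℝ)..r, sn κ t ^ (n - 1)

/-- The Euclidean isoperimetric inequality up to the factor `C`. -/
def IsoUpTo {n : ℕ} (C : ℝ) (u w : Space n → ℝ) : Prop :=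
  eucConst n * volTerm u w ^ ((n - 1 : ℝ) / n) ≤ C * gradTerm u w

/-- The Euclidean term plus the linear term is at most `4` times the gradient term. -/
def IsoLinear {n : ℕ} (κ : ℝ) (u w : Space n → ℝ) : Prop :=
  eucConst n * volTerm u w ^ ((n - 1 : ℝ) / n) + ((n : ℝ) - 1) * √(-κ) * massTerm u w
    ≤ 4 * gradTerm u w

/-- The model profile at the volume term is at most `4` times the gradient term, if `w ≤ 1`. -/
def IsoModel {n : ℕ} (κ : ℝ) (u w : Space n → ℝ) : Prop :=
  (∀ x, w x ≤ 1) → ∀ r, 0 ≤ r → volTerm u w = modelVol n κ r →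
    modelArea n κ r ≤ 4 * gradTerm u w

/-- The generalised Cartan-Hadamard inequality, with a universal fraction of the model profile,
for conformally flat metrics with `Sec ≤ κ ≤ 0`. -/
theorem result :
    (∀ n : ℕ, 3 ≤ n → ∀ κ : ℝ, κ ≤ 0 → ∀ (U : Set (Space n)) (u w : Space n → ℝ),
      IsOpen U → ContDiffOn ℝ 2 u U → SecLe κ U u → IsTest U w →
        IsoLinear κ u w ∧ IsoModel κ u w) ∧
    (∀ n : ℕ, 3 ≤ n → ∀ (U : Set (Space n)) (u w : Space n → ℝ),
      IsOpen U → ContDiffOn ℝ 2 u U → SecLe 0 U u → IsTest U w → IsoUpTo 3 u w) ∧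
    (∀ n : ℕ, 2 ≤ n → ∀ (U : Set (Space n)) (u w : Space n → ℝ),
      IsOpen U → ContDiffOn ℝ 1 u U → RadiallyIncreasing U u → IsTest U w → IsoUpTo 2 u w) := by
  refine ⟨fun n hn κ hκ U u w hU hu hsec ht => ?_, fun n hn U u w hU hu hsec ht => ?_,
    fun n hn U u w hU hu hrad ht =>
    Vale.Agent.P219.radial_iso hn hU hu hrad ht.1 ht.2.1 ht.2.2.1 ht.2.2.2⟩
  · have hk : √(-κ) ^ 2 = -κ := Real.sq_sqrt (by linarith)
    have hS : ∀ x ∈ U, ∀ a b : Space n, ‖a‖ = 1 → ‖b‖ = 1 → ⟪a, b⟫ = 0 →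
        √(-κ) ^ 2 * Real.exp (2 * u x) ≤ fderiv ℝ (fderiv ℝ u) x a a
          + fderiv ℝ (fderiv ℝ u) x b b - fderiv ℝ u x a ^ 2 - fderiv ℝ u x b ^ 2
          + ‖fderiv ℝ u x‖ ^ 2 := by
      intro x hx a b ha hb hab
      have h := hsec x hx a b ha hb hab
      unfold secConf hess dval dnorm dif at h
      rw [show -2 * u x = -(2 * u x) by ring, Real.exp_neg,
        inv_mul_le_iff₀ (Real.exp_pos _)] at h
      rw [hk]
      linarith
    refine ⟨Vale.Agent.P219.conformal_iso_kappa hn (Real.sqrt_nonneg _) hU hu hS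
      ht.1 ht.2.1 ht.2.2.1 ht.2.2.2, fun h1 r hr hV => ?_⟩
    exact Vale.Agent.P219.conformal_profile hn (Real.sqrt_nonneg _) hU hu hS
      ht.1 ht.2.1 ht.2.2.1 ht.2.2.2 h1 hr hV
  · refine Vale.Agent.P219.conformal_iso hn hU hu (fun x hx a b ha hb hab => ?_)
      ht.1 ht.2.1 ht.2.2.1 ht.2.2.2
    have h := hsec x hx a b ha hb hab
    unfold secConf hess dval dnorm dif at h
    nlinarith [Real.exp_pos (-2 * u x)]

end Vale.Agent.Results.P219.ConformallyFlatKappa
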