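import Vale.Agent.P219.RadialSharp

open MeasureTheory Set Metric

namespace Vale.Agent.Results.P219.RadialNearSharp

/-- The Cartan–Hadamard isoperimetric (`L¹` Sobolev) inequality, up to the factor `2 ^ (1/n)`,
for all rotationally symmetric metrics `e^{2φ(|x|)}δ` with `φ` nondecreasing. -/
theorem result : ∀ (n : ℕ) (R : ℝ) (φ : ℝ → ℝ) (w : EuclideanSpace ℝ (Fin n) → ℝ), 2 ≤ n →
    MonotoneOn φ (Ico 0 R) → ContDiff ℝ 1 w → HasCompactSupport w → tsupport w ⊆ ball 0 R →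
    (∀ x, 0 ≤ w x) →
    n * volume.real (closedBall (0 : EuclideanSpace ℝ (Fin n)) 1) ^ ((n : ℝ)⁻¹)
        * (∫ x, Real.exp (n * φ ‖x‖) * w x ^ ((n : ℝ) / (n - 1))) ^ ((n - 1 : ℝ) / n)
      ≤ 2 ^ ((n : ℝ)⁻¹) * ∫ x, Real.exp (((n : ℝ) - 1) * φ ‖x‖) * ‖fderiv ℝ w x‖ :=
  fun _ _ _ _ hn hφ hw hc hs h0 => Vale.Agent.P219.radial_sharp hn hφ hw hc hs h0

end Vale.Agent.Results.P219.RadialNearSharp
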