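import Vale.Agent.P219.Transport.Main
import Vale.Agent.P219.Transport.Conf

open MeasureTheory Set
open scoped RealInnerProductSpace

namespace Vale.Agent.Results.P219.SharpConcaveConformal

/-- Euclidean space. -/
abbrev Space (n : ℕ) := EuclideanSpace ℝ (Fin n)

/-- The Euclidean isoperimetric constant `n ω_n^{1/n}`. -/
noncomputable def eucConst (n : ℕ) : ℝ :=
  n * volume.real (Metric.closedBall (0 : Space n) 1) ^ ((n : ℝ)⁻¹)

/-- The volume density of the metric with orthonormal frame `x ↦ (M x eᵢ)ᵢ`. -/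
noncomputable def volDens {n : ℕ} (M : Space n → Space n →L[ℝ] Space n) (x : Space n) : ℝ :=
  |(M x).det|⁻¹

/-- The vector whose `i`-th coordinate is the divergence of the `i`-th frame field. -/
noncomputable def divVec {n : ℕ} (M : Space n → Space n →L[ℝ] Space n) (x : Space n) : Space n :=
  ∑ i, ((volDens M x)⁻¹ * LinearMap.trace ℝ (Space n)
    (fderiv ℝ (fun y => volDens M y • M y (EuclideanSpace.single i (1 : ℝ))) x :
      Space n →ₗ[ℝ] Space n)) • EuclideanSpace.single i (1 : ℝ)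

/-- A `C²` symmetric positive definite field of operators on an open convex set. -/
def IsFrame {n : ℕ} (U : Set (Space n)) (M : Space n → Space n →L[ℝ] Space n) : Prop :=
  IsOpen U ∧ Convex ℝ U ∧ ContDiffOn ℝ 2 M U ∧
    (∀ x ∈ U, ∀ u v, ⟪M x u, v⟫ = ⟪u, M x v⟫) ∧ (∀ x ∈ U, ∀ v, v ≠ 0 → 0 < ⟪v, M x v⟫)

/-- The derivative of the divergence vector along the frame. -/
noncomputable def divAlong {n : ℕ} (M : Space n → Space n →L[ℝ] Space n) (x : Space n) :
    Space n →L[ℝ] Space n :=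
  (fderiv ℝ (divVec M) x).comp (M x)

/-- A frame whose divergence vector is monotone and has symmetric positive semidefinite
derivative along the frame. -/
def MonotoneFrame {n : ℕ} (U : Set (Space n)) (M : Space n → Space n →L[ℝ] Space n) : Prop :=
  IsFrame U M ∧ (∀ x ∈ U, ∀ y ∈ U, 0 ≤ ⟪divVec M x - divVec M y, x - y⟫) ∧
    (∀ x ∈ U, ∀ u v, ⟪divAlong M x u, v⟫ = ⟪u, divAlong M x v⟫) ∧
    (∀ x ∈ U, ∀ v, 0 ≤ ⟪v, divAlong M x v⟫)

/-- A nonnegative `C¹` test function with compact support in `U`. -/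
def IsTest {n : ℕ} (U : Set (Space n)) (w : Space n → ℝ) : Prop :=
  ContDiff ℝ 1 w ∧ HasCompactSupport w ∧ tsupport w ⊆ U ∧ ∀ x, 0 ≤ w x

/-- The differential. -/
noncomputable def dif {n : ℕ} (u : Space n → ℝ) : Space n → (Space n →L[ℝ] ℝ) := fderiv ℝ u

/-- Sectional curvature of `ξ⁻² δ` on the plane spanned by the orthonormal vectors `a`, `b`. -/
noncomputable def secConf {n : ℕ} (ξ : Space n → ℝ) (x a b : Space n) : ℝ :=
  ξ x * (fderiv ℝ (dif ξ) x a a + fderiv ℝ (dif ξ) x b b) - ‖dif ξ x‖ ^ 2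

/-- The volume norm `(∫_U q w^{n/(n-1)})^{(n-1)/n}`. -/
noncomputable def volNorm {n : ℕ} (U : Set (Space n)) (q w : Space n → ℝ) : ℝ :=
  (∫ x in U, q x * w x ^ ((n : ℝ) / (n - 1))) ^ (((n : ℝ) - 1) / n)

/-- The gradient integral of `w` for the metric with frame `M`. -/
noncomputable def gradInt {n : ℕ} (U : Set (Space n)) (M : Space n → Space n →L[ℝ] Space n)
    (w : Space n → ℝ) : ℝ :=
  ∫ x in U, volDens M x * ‖(dif w x).comp (M x)‖

/-- The sharp inequality for the metric with frame `M`. -/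
def SharpFrame {n : ℕ} (U : Set (Space n)) (M : Space n → Space n →L[ℝ] Space n) : Prop :=
  ∀ w, IsTest U w → eucConst n * volNorm U (volDens M) w ≤ gradInt U M w

/-- The volume density of `ξ⁻² δ`. -/
noncomputable def confVol {n : ℕ} (ξ : Space n → ℝ) (x : Space n) : ℝ := (ξ x ^ n)⁻¹

/-- The sharp inequality for `ξ⁻² δ`. -/
def SharpConf {n : ℕ} (U : Set (Space n)) (ξ : Space n → ℝ) : Prop :=
  ∀ w, IsTest U w →
    eucConst n * volNorm U (confVol ξ) w ≤ ∫ x in U, (ξ x ^ (n - 1))⁻¹ * ‖dif w x‖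

/-- The metric `ξ⁻² δ` has nonpositive sectional curvature on `U`. -/
def SecNonpos {n : ℕ} (U : Set (Space n)) (ξ : Space n → ℝ) : Prop :=
  ∀ x ∈ U, ∀ a b, ‖a‖ = 1 → ‖b‖ = 1 → ⟪a, b⟫ = 0 → secConf ξ x a b ≤ 0

/-- The sharp inequality for every metric with a monotone frame, and for `ξ⁻² δ`, `ξ` concave. -/
theorem result :
    ∀ n : ℕ, 2 ≤ n →
      (∀ (U : Set (Space n)) M, MonotoneFrame U M → SharpFrame U M) ∧
      (∀ (U : Set (Space n)) ξ, IsOpen U → ContDiffOn ℝ 2 ξ U → ConcaveOn ℝ U ξ →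
        (∀ x ∈ U, 0 < ξ x) → SecNonpos U ξ ∧ SharpConf U ξ) := by
  intro n hn
  refine ⟨?_, ?_⟩
  · intro U M h w hw
    obtain ⟨⟨h1, h2, h3, h4, h5⟩, h6, h7, h8⟩ := h
    exact Vale.Agent.P219.Transport.sharp_potential hn ⟨⟨h1, h2, h3, h4, h5⟩, h6, h7, h8⟩
      hw.1 hw.2.1 hw.2.2.1 hw.2.2.2
  · intro U ξ hU hξ hc hpos
    refine ⟨fun x hx a b _ _ _ =>
      Vale.Agent.P219.Transport.sec_confM hn hU hξ hc hpos hx a b, fun w hw => ?_⟩
    have key := Vale.Agent.P219.Transport.sharp_potential hn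
      (Vale.Agent.P219.Transport.potential_confM hn hU hξ hc hpos) hw.1 hw.2.1 hw.2.2.1 hw.2.2.2
    refine le_of_eq_of_le ?_ (key.trans_eq ?_)
    · simp only [Vale.Agent.P219.isoConst, Vale.Agent.P219.kap, eucConst, volNorm, confVol]
      congr 2
      refine setIntegral_congr_fun hU.measurableSet fun x hx => ?_
      simp only [Vale.Agent.P219.Transport.dens_confM x (hpos x hx)]
    · refine setIntegral_congr_fun hU.measurableSet fun x hx => ?_
      simp only [Vale.Agent.P219.Transport.dens_confM x (hpos x hx),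
        Vale.Agent.P219.Transport.norm_comp_confM _ x (hpos x hx)]
      obtain ⟨m, rfl⟩ : ∃ m, n = m + 1 := ⟨n - 1, by omega⟩
      have := (hpos x hx).ne'
      simp only [Nat.add_sub_cancel, dif]
      field_simp
      ring

end Vale.Agent.Results.P219.SharpConcaveConformal
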