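import Vale.Agent.P219.Solv.Example
import Vale.Agent.P219.Slice.Main

open MeasureTheory Set Metric

namespace Vale.Agent.Results.P219.SolvableGroups

open Vale.Agent.P219.Solv Vale.Agent.P219.Slice

/-- The sharp `L¹` Sobolev (isoperimetric) inequality of the Cartan–Hadamard conjecture, `κ = 0`,
for (1) every left-invariant metric on every triangular group (coordinates of the second kind of a
simply connected solvable Lie group), with (2) hyperbolic space as an instance of the hypotheses, and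
(3) the metrics `dt² + ‖(L t)⁻¹ dy‖²` with log-convex volume density. -/
theorem result :
    (∀ (n : ℕ) (mul : (Fin n → ℝ) → (Fin n → ℝ) → (Fin n → ℝ))
      (g : (Fin n → ℝ) → Matrix (Fin n) (Fin n) ℝ) (w : (Fin n → ℝ) → ℝ),
      2 ≤ n → Triangular n mul → IsMetric g → LeftInvariant mul g →
      ContDiff ℝ 1 w → HasCompactSupport w → (∀ x, 0 ≤ w x) →
      (n : ℝ) * volume.real (closedBall (0 : EuclideanSpace ℝ (Fin n)) 1) ^ (n : ℝ)⁻¹
          * (∫ x, mdens g x * w x ^ ((n : ℝ) / (n - 1))) ^ ((n - 1 : ℝ) / n)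
        ≤ ∫ x, mdens g x * mnorm g x (fderiv ℝ w x)) ∧
    (∀ m : ℕ, ∃ (mul : (Fin (m + 1) → ℝ) → (Fin (m + 1) → ℝ) → (Fin (m + 1) → ℝ))
      (g : (Fin (m + 1) → ℝ) → Matrix (Fin (m + 1)) (Fin (m + 1)) ℝ),
      Triangular (m + 1) mul ∧ IsMetric g ∧ LeftInvariant mul g ∧
        ∀ x, g x = Matrix.diagonal fun j => if j = 0 then 1 else Real.exp (-2 * x 0)) ∧
    ∀ (m : ℕ) (L : ℝ → EuclideanSpace ℝ (Fin m) →L[ℝ] EuclideanSpace ℝ (Fin m))
      (w : ℝ × EuclideanSpace ℝ (Fin m) → ℝ),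
      1 ≤ m → Continuous L → (∀ t, (L t).det ≠ 0) →
      ConvexOn ℝ univ (fun t => Real.log (dens L t)) →
      ContDiff ℝ 1 w → HasCompactSupport w → (∀ x, 0 ≤ w x) →
      ((m : ℝ) + 1)
          * volume.real (closedBall (0 : EuclideanSpace ℝ (Fin (m + 1))) 1) ^ ((m : ℝ) + 1)⁻¹
          * (∫ x, dens L x.1 * w x ^ (((m : ℝ) + 1) / m)) ^ ((m : ℝ) / (m + 1))
        ≤ ∫ x, dens L x.1 * gnorm L w x := by
  refine ⟨fun n mul g w hn hG hg hi hw hc h0 => ?_,
    fun m => ⟨_, _, hyp_triangular, hyp_isMetric, hyp_invariant, fun x => rfl⟩,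
    fun m L w hm hL hdet hconv hw hc h0 => ?_⟩
  · exact sobolev_of_cap hn hg.contDiff_mdens.continuous (fun x => (hg.mdens_pos x).le)
      hg.continuous_mnorm (fun x D r hr => mnorm_smul g x D hr) (fun x D => Real.sqrt_nonneg _)
      (group_cap n (by omega) mul g hG hg hi) hw hc h0
  · simpa [Vale.Agent.P219.kap] using sharp_sliced (L := L) hm hdet hL hconv hw hc h0

end Vale.Agent.Results.P219.SolvableGroups
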